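import Mathlib
import Vale.Agent.P319.SC.AIface
import Vale.Agent.P319.Ev.PW

/-! P319, block SC, package ALG-SEP: the tests of `scTestsForN` separate. -/

set_option linter.all false

namespace Vale.Agent.P319.SC.H272

open Polynomial Vale.Agent.P319 Vale.Agent.P319.Ev Vale.Agent.P319.SC

/-! ### The number of levels -/

theorem powClamp_le_iff {N s r : ℕ} (hs : 1 ≤ s) : powClamp N s r ≤ N ↔ s ^ r ≤ N := by
  constructor
  · intro h
    have h1 := PFRoots_powClamp_eq N s r hs h
    unfold powClamp at h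
    rw [h1] at h
    exact h
  · intro h
    rw [asm_powClamp hs h]
    exact h

theorem scM_eq {N : ℕ} {g : List ℕ} (hn : 2 ≤ g.length - 1) (hN : N ≠ 0) :
    scM N g = Nat.log (g.length - 1) N := by
  unfold scM
  generalize g.length - 1 = n at hn
  have h2 : (Finset.filter (fun k => powClamp N n (k + 1) ≤ N) (Finset.range (Nat.size N))) =
      Finset.range (Nat.log n N) := by
    ext k
    simp only [Finset.mem_filter, Finset.mem_range]
    rw [powClamp_le_iff (by omega)]
    constructor
    · rintro ⟨-, h⟩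
      exact Nat.le_log_of_pow_le (by omega) h
    · intro h
      have h3 : n ^ (k + 1) ≤ N :=
        (Nat.pow_le_pow_right (by omega) h).trans (Nat.pow_log_le_self n hN)
      refine ⟨?_, h3⟩
      by_contra h4
      push Not at h4
      have h5 := Nat.size_le.1 h4
      have h6 : 2 ^ k ≤ n ^ (k + 1) :=
        (Nat.pow_le_pow_left hn k).trans (Nat.pow_le_pow_right (by omega) (by omega))
      omega
  have h1 : ((List.range (Nat.size N)).filter fun k => decide (powClamp N n (k + 1) ≤ N)).length
      = (Finset.filter (fun k => powClamp N n (k + 1) ≤ N) (Finset.range (Nat.size N))).card := rfl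
  rw [h1, h2, Finset.card_range]

section
variable {nr : ℕ → ℕ → ℕ → List (List ℕ)} {p : ℕ} [hpf : Fact p.Prime] {g : List ℕ}
  {Z : Finset (ZMod p)} {M : ℕ}

/-! ### Validity of the tests -/

theorem scTests_vec (hVLU : VLUStmt) (hVL : VLVecStmt) {N : ℕ} (H : EvN.Ctx nr p N g Z M)
    (hM : 3 ≤ M) {E : List (List ℕ)} (hE : Good Z M E) :
    ∀ t ∈ scTestsN nr p N g M E, VecK p (Z.card ^ M) t := by
  intro t ht
  unfold scTestsN at ht
  rcases List.mem_append.1 ht with h1 | h1
  · exact EvN.tests_vec H hE t h1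
  rcases List.mem_append.1 h1 with h1 | h1
  · split_ifs at h1 with h3
    · have hlen := H.sit.len
      exact EvN.cycTests_vec H Nat.prime_three (by omega)
        (fun i hi => (vl_X H.sit (by omega)).1) t h1
    · simp at h1
  · obtain ⟨e, he, h1⟩ := List.mem_flatMap.1 h1
    unfold scTests1 at h1
    rcases List.mem_append.1 h1 with h1 | h1
    · obtain ⟨i, hi, h1⟩ := List.mem_flatMap.1 h1
      obtain ⟨j, hj, rfl⟩ := List.mem_map.1 h1
      exact (hVLU p g Z H.sit M i j (List.mem_range.1 hi) (List.mem_range.1 hj) e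
        (hE.vec e he)).1
    · obtain ⟨k, hk, h1⟩ := List.mem_flatMap.1 h1
      have hk' := List.mem_range.1 hk
      unfold scCov at h1
      obtain ⟨τ, -, h1⟩ := List.mem_flatMap.1 h1
      obtain ⟨κ, -, h1⟩ := List.mem_flatMap.1 h1
      obtain ⟨j, -, h1⟩ := List.mem_flatMap.1 h1
      obtain ⟨r, hr, h1⟩ := List.mem_flatMap.1 h1
      split_ifs at h1 with h2
      · have h3 := H.sit.len
        have h4 := List.mem_range.1 hr
        exact EvN.cycTests_vec H ((primeB_iff r).1 h2) (by omega)
          (fun i _ => hVL p g Z H.sit M k (by omega) _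
            (vl_F H.sit (by omega) (hE.vec e he)).1 κ τ (j * i)) t h1
      · simp at h1

/-! ### The configuration -/

theorem scCol_one {E : List (List ℕ)} (hE : Good Z M E) (v : ℕ → Z) :
    scCol hE 1 v = col hE (fun _ => v 0) := by
  unfold scCol
  rw [if_neg (by omega)]
  congr 1

theorem scCol_pair {E : List (List ℕ)} (hE : Good Z M E) (k : ℕ) (u : ℕ → Z) (a b : Z) :
    scCol hE (k + 2) (ins (k + 1) (ins k u a) b) = col hE (ins (k + 1) (ins k u a) b) := by
  unfold scCol
  rw [if_neg (by omega)]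
  congr 1
  funext i
  unfold ins
  simp only [Nat.add_sub_cancel, show k + 2 - 1 = k + 1 by omega, lt_irrefl, if_false]
  split_ifs <;> rfl

theorem scCol_sing {E : List (List ℕ)} (hE : Good Z M E) (k : ℕ) (u : ℕ → Z) (a : Z) :
    scCol hE (k + 1) (ins k u a) = col hE (ins k u a) := by
  unfold scCol
  rw [if_neg (by omega)]
  congr 1
  funext i
  unfold ins
  simp only [Nat.add_sub_cancel, lt_irrefl, if_false]
  split_ifs <;> rfl

theorem ins_sw (k : ℕ) (u : ℕ → Z) (a b : Z) :
    ∀ i < k + 2, (ins (k + 1) (ins k u a) b ∘ sw k) i = ins (k + 1) (ins k u b) a i := by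
  intro i hi
  by_cases h1 : i = k
  · subst h1
    simp [sw, ins]
  · by_cases h2 : i = k + 1
    · subst h2
      simp [sw, ins]
    · have h3 : i < k := by omega
      have h4 : i < k + 1 := by omega
      simp [sw, ins, h1, h2, h3, h4]

/-- the coherent configuration of a stable partition -/
noncomputable def cfg (hCfg : CfgStmt) (hCyc : CycStmt) {N : ℕ} {E : List (List ℕ)}
    (H : SCtx nr p N g Z M E) {m : ℕ} (hm : 2 * m ≤ M) (h3 : 3 ≤ m) : Cfg Z (List ℕ) m where
  col := scCol H.good
  dep := (hCfg nr p N g Z M E H m hm h3).1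
  sub := (hCfg nr p N g Z M E H m hm h3).2.1
  ext := (hCfg nr p N g Z M E H m hm h3).2.2.1
  eqv := (hCfg nr p N g Z M E H m hm h3).2.2.2.1
  anti2 := (hCfg nr p N g Z M E H m hm h3).2.2.2.2.1
  anti3 := (hCfg nr p N g Z M E H m hm h3).2.2.2.2.2
  cyc := by
    obtain ⟨hdep, hsub, hext, -, -, -⟩ := hCfg nr p N g Z M E H m hm h3
    intro k hk u i r h hr h1 h2
    simp only [scCol_pair, scCol_sing] at h1 h2 ⊢
    refine hCyc nr p N g Z M E H k (by omega) u ?_ ?_ ?_ i r h hr h1 h2
    · intro a b a' b' he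
      rw [← scCol_pair, ← scCol_pair] at he ⊢
      have h4 := hsub (k + 2) (k + 2) (by omega) (by omega) (sw k) (by
        intro l hl
        unfold sw
        split_ifs <;> omega) _ _ he
      rwa [hdep (k + 2) (by omega) _ _ (ins_sw k u a b),
        hdep (k + 2) (by omega) _ _ (ins_sw k u a' b')] at h4
    · intro a b a' b' he
      rw [← scCol_pair, ← scCol_pair] at he
      rw [← scCol_sing, ← scCol_sing]
      have h4 := hsub (k + 1) (k + 2) (by omega) (by omega) id (by
        intro l hl
        show l < k + 2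
        omega) _ _ he
      have h5 : ∀ a b : Z, ∀ l < k + 1, (ins (k + 1) (ins k u a) b ∘ id) l = ins k u a l := by
        intro a b l hl
        show ins (k + 1) (ins k u a) b l = _
        rw [ins, if_pos hl]
      rwa [hdep (k + 1) (by omega) _ _ (h5 a b), hdep (k + 1) (by omega) _ _ (h5 a' b')] at h4
    · intro a a' he i
      rw [← scCol_sing, ← scCol_sing] at he
      have h4 := hext (k + 1) (by omega) _ _ he i
      have h5 : ∀ a z : Z, scCol H.good (k + 1 + 1) (ins (k + 1) (ins k u a) z) =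
          col H.good (ins (k + 1) (ins k u a) z) := fun a z => scCol_pair H.good k u a z
      simp only [h5] at h4
      exact h4

end

/-! ### Separation -/

/-- **ALG-SEP**: the tests separate, given nonresidues -/
theorem sep_of (hMain : MainStmt) (hVLU : VLUStmt) (hVLVec : VLVecStmt) (hCfg : CfgStmt)
    (hCyc : CycStmt) (hAr : ArithStmt) :
    ∃ C₀ : ℕ, ∀ (nr : ℕ → ℕ → ℕ → List (List ℕ)) [NrOK nr], SEPStmtSC C₀ nr := by
  obtain ⟨C, hC⟩ := hMain
  obtain ⟨C₀, hC₀⟩ := hAr C
  refine ⟨C₀, ?_⟩
  intro nr hok p N _ g Z hg hZ h2 hsN hNp hnr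
  obtain ⟨s, hs1, hs2⟩ := hsN
  have hs : Sit p g Z := ⟨hg, hZ, by omega⟩
  have hlen := hs.len
  have hn : g.length - 1 = Z.card := by omega
  have hN0 : N ≠ 0 := by
    rintro rfl
    have : 0 < s ^ (C₀ * scE s) := Nat.pow_pos (by omega)
    omega
  set M := scM N g with hMdef
  have hMlog : M = Nat.log Z.card N := by
    rw [hMdef, scM_eq (by omega) hN0, hn]
  have hMN : Z.card ^ M ≤ N := by
    rw [hMlog]; exact Nat.pow_log_le_self _ hN0
  obtain ⟨hM12, hlt⟩ := hC₀ s Z.card N M h2 hs1 hs2 (by
    intro k hk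
    rw [hMlog]
    exact Nat.le_log_of_pow_le (by omega) hk)
  have hbig : (Z.card + 1) ^ 3 < p := by
    have h1 : (Z.card + 1) ^ 3 ≤ Z.card ^ 6 := by
      have h3 : Z.card + 1 ≤ Z.card ^ 2 := by nlinarith
      calc (Z.card + 1) ^ 3 ≤ (Z.card ^ 2) ^ 3 := Nat.pow_le_pow_left h3 3
        _ = Z.card ^ 6 := by rw [← pow_mul]
    have h3 : Z.card ^ 6 ≤ Z.card ^ M := Nat.pow_le_pow_right (by omega) (by omega)
    omega
  have hsq : Z.card * Z.card < p := by
    have h1 : Z.card * Z.card ≤ (Z.card + 1) ^ 3 := by nlinarith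
    omega
  have H : EvN.Ctx nr p N g Z M := by
    refine ⟨hs, h2, hsq, pw, fun r hr hrn al hal => ?_, hnr⟩
    apply hok.ok p N r hr _ al hal
    rintro rfl
    nlinarith
  have hfin := iterate_spec (m := M) hs (scTestsN nr p N g M)
    (fun E hE => scTests_vec hVLU hVLVec H (by omega) hE) (Good.one hs) (by simp)
  set E := (fun E => (scTestsN nr p N g M E).foldl (evRefine p g M) E)^[Z.card ^ M]
    [(evOps p g M).one] with hEdef
  have hE' : scFinalN nr p N g M = E := by
    rw [hEdef]
    unfold scFinalN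
    rw [hn]
    rfl
  have hF : scTestsForN nr p N g = (scFinalN nr p N g M).map (evDiag p g M) := by
    unfold scTestsForN
    rw [if_pos ⟨by omega, by omega, by
      rw [powClamp_le_iff (by omega), hn, ← hMdef]
      exact hMN⟩]
  obtain ⟨hE, hst⟩ := hfin
  have hS : SCtx nr p N g Z M E := ⟨H, hbig, hE, hst⟩
  by_contra hcon
  push Not at hcon
  have h9 := hC Z (List ℕ) (M / 2) (cfg hCfg hCyc hS (by omega) (by omega)) (by simpa using h2) ?_
  · rw [Fintype.card_coe] at h9
    omega
  intro a b
  show scCol hS.good 1 (fun _ => a) = scCol hS.good 1 (fun _ => b)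
  rw [scCol_one, scCol_one]
  by_contra hne
  have h3 : vl Z M (col hE fun _ => b) (fun _ => a) = 0 := by
    by_contra h4
    exact hne ((col_iff hE).2 ⟨col_mem hE _, h4⟩)
  have h5 := fun z hz => (ts6 p g Z hs M (col hE fun _ => b)
    (hE.vec _ (col_mem hE _))).2 z hz
  have h6 := hcon a a.2 b b.2 (evDiag p g M (col hE fun _ => b)) (by
    rw [hF, hE']
    exact List.mem_map_of_mem (col_mem hE _)) (by rw [h5 _ a.2]; exact h3)
  rw [h5 _ b.2] at h6
  exact col_ne hE _ h6

end Vale.Agent.P319.SC.H272
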